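import Vale.Agent.P354CO.Slab

/-! From the integrals over slabs to the suprema and to the distance to Kerr. -/

open scoped ENNReal
open Set Finset MeasureTheory

noncomputable section

namespace Vale.Agent.P354CO

open Vale.Agent.P354XG Vale.Agent.P354XD Vale.Agent.P354XI Vale.Agent.P354XR Vale.Agent.P354Z
open Vale.Agent.P354CV
open Vale.Agent.P354YH

variable {c : Cs} {E : Est}

theorem ok_pos (h : c.Ok) : 0 < c.M ∧ 0 < c.r1 := by
  have m := (abs_nonneg _).trans_lt h.aM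
  have : √(c.M ^ 2 - c.a ^ 2) ≤ c.M := Real.sqrt_le_iff.2 ⟨m.le, by nlinarith [sq_nonneg c.a]⟩
  exact ⟨m, by linarith [h.r1]⟩

theorem ok_B (o : c.Ok) : -c.B ≤ c.t1 := by linarith [o.B, o.t1]

/-- Below the graph of the bottom the time is less than t1. -/
theorem ab_of (o : c.Ok) (h : E.Shape c) {y : E6} (hy : y ∈ E.O1) (ht : c.t1 ≤ y.1) :
    Est.Ab c y := by
  have r := (h.rad1 y hy).1
  have := o.btt _ r
  have := mul_nonneg o.del.1.le ((ok_pos o).2.le.trans r)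
  unfold Est.Ab
  linarith

theorem fl_near {t : ℝ} (h : 0 ≤ t) : |t - ⌊t⌋₊| ≤ 1 :=
  abs_le.2 ⟨by linarith [Nat.floor_le h], by linarith [Nat.lt_floor_add_one t]⟩

theorem dist_t {x y : E6} (h : dist y x ≤ 1) :
    x.1 - 1 ≤ y.1 ∧ y.1 ≤ x.1 + 1 ∧ y.2.1 ≤ x.2.1 + 1 := by
  have a : |y.1 - x.1| ≤ 1 := (le_max_left _ _).trans h
  have b : |y.2.1 - x.2.1| ≤ 1 := (le_max_left _ _).trans ((le_max_right _ _).trans h)
  rw [abs_le] at a b
  exact ⟨by linarith, by linarith, by linarith⟩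

theorem Bo.dec0 {L : ℕ} {ε : ℝ} (h : Bo c E L ε) (hL : c.L0 ≤ L) : E.Dec c.L0 (7 / 5) ε :=
  fun x hx n => (eta_mono hL x).trans (h.dec x hx n)

/-- The frame is close to the frame of Kerr. -/
theorem d1s (o : c.Ok) {ρ δ : ℝ} (hρ : c.R1 + 3 ≤ ρ) (hδ : 0 < δ) : ∃ e > 0, ∀ E L ε,
    Bo c E L ε → c.L0 ≤ L → ε ≤ e → ∀ y ∈ E.O1, An y → y.2.1 ≤ ρ → c.t1 ≤ y.1 → ∀ i,
      ‖fv (E.d1 c i) y‖ ≤ δ := by
  obtain ⟨C, hC, h⟩ := bootp (s := 7 / 5) (by norm_num) (by norm_num) (⌈c.c0⌉₊ + 1)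
  have p : 0 ≤ c.C ρ * C := mul_nonneg (zero_le_one.trans (o.C ρ)) hC
  refine ⟨min (1 / 2) (δ / (2 * (c.C ρ * C) + 1)), by positivity,
    fun E L ε b hL he y hy a r t i => ?_⟩
  have e1 := he.trans (min_le_left _ _)
  have e2 := (le_div_iff₀ (by positivity)).1 (he.trans (min_le_right _ _))
  have e0 := b.is.near.e0
  have e3 := b.e0
  have e4 := b.pos
  have k := (h (by linarith [o.t1]) (by linarith [o.c0]) b.is.near (b.dec0 hL) e4.le (by linarith)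
    hρ ⌊y.1 - c.t1⌋₊ y hy a r (by
      push_cast; linarith [fl_near (sub_nonneg.2 t), Nat.le_ceil c.c0]) i).1
  have w1 : wt (-(7 / 5)) ⌊y.1 - c.t1⌋₊ ≤ 1 :=
    (wt_le (by norm_num) (Nat.zero_le _)).trans_eq (wt_zero _)
  have w0 := wt_pos (-(7 / 5)) ⌊y.1 - c.t1⌋₊
  refine (abs_le_of_sq_le_sq' ((P354BO.q2_val _ y _ _).trans k) (by positivity)).2.trans ?_
  refine (mul_le_of_le_one_right (by positivity) w1).trans ?_
  nlinarith [mul_le_mul_of_nonneg_left e3 p]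

theorem sm_cons {Q a D : ℝ} {v : ℕ → ℝ} (h0 : 0 ≤ Q) (h3 : Q ≤ 3) (hv : ∀ j, 0 ≤ v j)
    (h : ∀ k, sm Q k v ≤ D) : ∀ k, sm Q k (fun i => Nat.casesOn i a v) ≤ a + 8 * D
  | 0 => by
    have := (sm_nn Q 0 hv).trans (h 0)
    simp only [sm, zero_add, range_one, sum_singleton, wt_zero, Nat.rec_zero]
    linarith
  | k + 1 => by
    rw [sm, sum_range_succ', wt_zero, one_mul, add_comm]
    refine add_le_add le_rfl (le_trans ?_ (mul_le_mul_of_nonneg_left (h k) (by norm_num)))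
    rw [sm, mul_sum]
    exact sum_le_sum fun j _ => (mul_le_mul_of_nonneg_right (wt_succ h0 h3 j) (hv j)).trans_eq
      (mul_assoc _ _ _)

theorem sm_three {Q D : ℝ} {u : ℕ → ℝ} (h0 : 0 ≤ Q) (hu : ∀ j, 0 ≤ u j) (h : ∀ k, sm Q k u ≤ D)
    (k : ℕ) : sm Q k (fun j => u j + u (j + 1) + u (j + 2)) ≤ 3 * D := by
  rw [sm_add Q k (fun j => u j + u (j + 1)), sm_add]
  linarith [h k, sm_next h0 hu h k, sm_next h0 (fun j => hu (j + 1)) (sm_next h0 hu h) k]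

/-- The suprema from the integrals. -/
theorem supt (hS : SOBC) (o : c.Ok) {L : ℕ} (h0 : c.L0 ≤ L) (hK : L ≤ c.K + 2) :
    ∃ δ > 0, ∃ C ≥ 1, ∀ E ε, Bo c E L ε → ε ≤ δ → ∀ Q, 0 ≤ Q → Q ≤ 3 →
      ∀ (Z : ℝ → ℝ → Set E6) T D, E.e0 ^ 2 ≤ D →
      Sl c Q (fun a b => Yz E (E.eta (L + 6)) (Z a b)) T D → ∃ m : ℕ → ℝ, (∀ i, 0 ≤ m i) ∧
        (∀ k, sm Q k m ≤ C * D) ∧ ∀ x ∈ E.O1, nq x = 1 → x.2.1 ≤ c.Rs - 3 →
        (∀ y ∈ E.O1, Est.Ab c y → rv E.sig y ≤ rv E.sig x → dist y x ≤ 1 →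
          y.1 ≤ T ∧ ∀ a b, a ≤ y.1 → y.1 ≤ b → y ∈ Z a b) →
        ∀ i : ℕ, c.t1 + i ≤ x.1 → x.1 ≤ c.t1 + i + 1 → E.eta L x ≤ m i := by
  obtain ⟨p1, p2⟩ := ok_pos o
  obtain ⟨C, δ, hC, hδ, hS⟩ := hS c.M c.r1 (c.Rs - 3) 1 L p2 one_pos
  obtain ⟨e, he, d⟩ := d1s o (ρ := c.Rs) (by linarith [o.R1, o.R2, o.Rs]) hδ
  refine ⟨e, he, 1 + 24 * C, by linarith, fun E ε b hε Q q0 q3 Z T D hD h => ?_⟩
  have D0 := (sq_nonneg _).trans hD
  obtain ⟨u, u0, u1, u2⟩ := h.real D0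
  have v0 : ∀ j, 0 ≤ C * (u j + u (j + 1) + u (j + 2)) := fun j =>
    mul_nonneg hC.le (add_nonneg (add_nonneg (u0 _) (u0 _)) (u0 _))
  refine ⟨fun i => Nat.casesOn i (E.e0 ^ 2) fun j => C * (u j + u (j + 1) + u (j + 2)),
    fun i => by cases i; exacts [sq_nonneg _, v0 _], fun k => (sm_cons (D := C * (3 * D)) q0 q3 v0
      (fun k => ?_) k).trans (by linarith), fun x hx n r hZ i t1 t2 => ?_⟩
  · rw [sm_mul]
    exact mul_le_mul_of_nonneg_left (sm_three q0 u0 u1 k) hC.le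
  cases i with
  | zero => exact (eta_mono hK x).trans (b.is.near.ini x hx ⟨by linarith, by linarith⟩
      (by push_cast at t2; linarith [o.B]))
  | succ j =>
    push_cast at t1 t2
    have j0 := Nat.cast_nonneg (α := ℝ) j
    have a := hS c E rfl rfl p1 b.is.shape b.is.eqs (by linarith) x hx n r fun y hy a dy => by
      obtain ⟨a1, -, a3⟩ := dist_t dy
      exact ⟨ab_of o b.is.shape hy (by linarith),
        fun i => d E L ε b h0 hε y hy a (by linarith) (by linarith) _⟩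
    refine (ENNReal.ofReal_le_ofReal_iff (v0 j)).1 (a.trans ?_)
    rw [ENNReal.ofReal_mul hC.le]
    refine mul_le_mul_right (cover (ok_B o) _ u0 u2 fun y hy _ s => ?_) _
    obtain ⟨a1, a2, -⟩ := dist_t s.2.2
    exact ⟨by linarith, by linarith, hZ y hy s.1 s.2.1 s.2.2⟩

theorem mem_alg {e : ℝ} {m q : ℕ → ℝ} {w j : ℕ} (e0 : 0 ≤ e) (e1 : e ≤ 1) (hm : ∀ i, 0 ≤ m i)
    (Q0 : 0 ≤ q (j - w)) : (2 ^ (w + 1) * me e (fun i => √(m i)) w j +
      2 * ((if j < w then w * e ^ 2 else 0) + q (j - w))) ^ 2 ≤ bb e m q w j := by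
  have z := me_nn (w := w) (j := j) e0 fun i => Real.sqrt_nonneg (m i)
  have a : (if j < w then w * e ^ 2 else 0) ≤ w * (2 ^ w * me e (fun i => √(m i)) w j) := by
    split_ifs with h
    · refine mul_le_mul_of_nonneg_left ?_ (Nat.cast_nonneg w)
      have : (j : ℝ) + 1 ≤ w := by exact_mod_cast h
      have p : 0 ≤ ∑ i ∈ range (j + w + 1), √(m i) * 2 ^ i := by positivity
      have := le_me (i := 0) (d := -1) (w := w) (j := j) (m := fun i => √(m i)) (e := e) e0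
        (by linarith) (by push_cast; linarith)
      rw [Real.rpow_neg_one, pow_succ] at this
      nlinarith
    · positivity
  have b0 : 0 ≤ if j < w then w * e ^ 2 else (0 : ℝ) := by split_ifs <;> positivity
  have b1 := pow_le_pow_left₀ (by positivity) (show 2 ^ (w + 1) * me e (fun i => √(m i)) w j +
    2 * ((if j < w then w * e ^ 2 else 0) + q (j - w)) ≤ 2 ^ (w + 1) * (1 + w) *
      me e (fun i => √(m i)) w j + 2 * q (j - w) by rw [pow_succ]; linarith) 2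
  have b2 := mul_le_mul_of_nonneg_left (me_sq (e := e) (w := w) (j := j) hm)
    (sq_nonneg (2 ^ (w + 1) * (1 + w : ℝ)))
  rw [bb, Lm]
  nlinarith [sq_nonneg (2 ^ (w + 1) * (1 + w) * me e (fun i => √(m i)) w j - 2 * q (j - w))]

theorem Dt.mono {Q D D' : ℝ} (h : Dt c E Q D) (e : D ≤ D') : Dt c E Q D' :=
  let ⟨a, n, q, b1, b2, b3, b4⟩ := h
  ⟨a.trans e, n, q, b1, b2, b3, fun k => (b4 k).trans e⟩

theorem Gi.mono {Q R T D T' D' : ℝ} (h : Gi c E Q R T D) (hT : T' ≤ T) (e : D ≤ D') :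
    Gi c E Q R T' D' :=
  let ⟨a, b, b1, b2, b3⟩ := h
  ⟨a.trans e, b, b1, fun k => (b2 k).trans e, fun x hx a r t => b3 x hx a r (t.trans hT)⟩

/-- The distance to Kerr from the suprema. -/
theorem gi_of (o : c.Ok) (hK : c.L0 ≤ c.K + 2) {R : ℝ} (hR : c.R1 + 3 ≤ R) : ∃ C ≥ 1,
    ∀ (E : Est) Q T D (m : ℕ → ℝ), E.Is c → 0 ≤ Q → Q ≤ 3 → D ≤ 1 → Dt c E Q D → (∀ i, 0 ≤ m i) →
      (∀ k, sm Q k m ≤ D) → (∀ y ∈ E.O1, nq y = 1 → y.2.1 ≤ R + 1 → y.1 ≤ T + c.c0 →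
        ∀ i : ℕ, c.t1 + i ≤ y.1 → y.1 ≤ c.t1 + i + 1 → E.eta c.L0 y ≤ m i) →
      Gi c E Q R T (C * D) := by
  classical
  obtain ⟨w, hw⟩ := exists_nat_ge (c.B + c.t1 + c.c0 + 1 + |c.bt c.R1 - c.t1|)
  have l0 := Lm_nn w
  have w3 := wt_pos 3 w
  have B1 := o.B
  have t2 := o.t1
  have c1 := o.c0
  have C1 := o.C c.R1
  have ab := abs_nonneg (c.bt c.R1 - c.t1)
  have z1 : 0 ≤ c.C R ^ 2 * (Lm w * 2 ^ (w + 11) * 2 + 8 * ((w + 1) * wt 3 w)) := by positivity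
  refine ⟨1 + (c.B * (1 + c.C c.R1 * (3 + 2 * w))) ^ 2 +
    c.C R ^ 2 * (Lm w * 2 ^ (w + 11) * 2 + 8 * ((w + 1) * wt 3 w)), by
      linarith [sq_nonneg (c.B * (1 + c.C c.R1 * (3 + 2 * w)))],
    fun E Q T D m I q0 q3 D1 ⟨hD, n, q, n0, hn, tl, hq⟩ m0 hm hs => ?_⟩
  have D0 := (sq_nonneg _).trans hD
  have e0 := I.near.e0
  have e1 : E.e0 ≤ 1 := by nlinarith
  have ini : ∀ ρ, Ini E (E.eta c.L0) ρ c.t1 E.e0 := fun ρ y hy n _ t =>
    (eta_mono hK y).trans (I.near.ini y hy ⟨by linarith, by linarith⟩ (by linarith))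
  have Q0 : ∀ j, 0 ≤ q j := fun j => le_trans (by simp) (tl j 0)
  refine ⟨?_, fun j => c.C R ^ 2 * bb E.e0 m q w j, fun j => mul_nonneg (sq_nonneg _) (bb_nn m0),
    fun k => ?_, fun x hx a r t i => ?_⟩
  · have p := I.near.par _ (tail_of (j := 0) (w := w) (ini _) n0 hn tl (by simpa using by linarith))
    have s1 : E.e0 ≤ √D := Real.le_sqrt_of_sq_le hD
    have s2 : q (0 - w) ≤ √D := Real.le_sqrt_of_sq_le (le_D q0 (fun j => sq_nonneg (q j)) hq _)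
    have s3 : (if 0 < w then w * E.e0 ^ 2 else 0) ≤ w * √D := by
      split_ifs
      · exact mul_le_mul_of_nonneg_left (by nlinarith) (Nat.cast_nonneg w)
      · positivity
    have s4 := mul_le_mul_of_nonneg_left (show E.e0 + 2 * ((if 0 < w then w * E.e0 ^ 2 else 0) +
      q (0 - w)) ≤ (3 + 2 * w) * √D by linarith) (zero_le_one.trans C1)
    have s5 := pow_le_pow_left₀ (by positivity) (mul_le_mul_of_nonneg_left (show E.e0 +
      |E.M - c.M| + |E.a - c.a| ≤ (1 + c.C c.R1 * (3 + 2 * w)) * √D by linarith)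
      (zero_le_one.trans B1)) 2
    rw [← mul_assoc, mul_pow _ (√D), Real.sq_sqrt D0] at s5
    nlinarith [mul_nonneg z1 D0]
  · rw [sm_mul]
    have b1 := bb_sum (e := E.e0) (Q := q) (w := w) q0 q3 m0 k
    have b2 := (sm_back q0 (fun j => sq_nonneg (q j)) hq w k).trans (mul_le_mul_of_nonneg_right
      (mul_le_mul_of_nonneg_left (wt_le_wt (j := w) q3) (by positivity)) D0)
    have b3 := mul_le_mul_of_nonneg_left (add_le_add hD (hm (k + w)))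
      (show 0 ≤ Lm w * 2 ^ (w + 11) by positivity)
    have b4 := mul_le_mul_of_nonneg_left (show sm Q k (bb E.e0 m q w) ≤
      (Lm w * 2 ^ (w + 11) * 2 + 8 * ((w + 1) * wt 3 w)) * D by linarith) (sq_nonneg (c.C R))
    nlinarith [mul_nonneg (sq_nonneg (c.B * (1 + c.C c.R1 * (3 + 2 * w)))) D0]
  · have hj : |x.1 - c.t1 - ⌊x.1 - c.t1⌋₊| + c.c0 ≤ w := by
      rcases le_total c.t1 x.1 with h | h
      · linarith [fl_near (sub_nonneg.2 h)]
      · rw [Nat.floor_of_nonpos (sub_nonpos.2 h), Nat.cast_zero, sub_zero,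
          abs_of_nonpos (sub_nonpos.2 h)]
        linarith [(I.shape.rad1 x hx).2.2]
    have P := past_of (f := fun y => if y.1 ≤ T + c.c0 then E.eta c.L0 y else 0) (ρ := R) (m := m)
      (by linarith) (by linarith) le_rfl e0 (fun y hy n r t => by
        dsimp only; split_ifs
        exacts [ini _ y hy n r t, sq_nonneg _]) (fun i _ y hy n r t1 t2 => by
        dsimp only; split_ifs with h
        exacts [hs y hy n r h i t1 t2, m0 i]) hj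
    have P' : E.Past c (E.eta c.L0) R x.1 _ := ⟨P.1, fun y hy n r t' =>
      (if_pos (by linarith)).symm.trans_le (P.2 y hy n r t')⟩
    have T' := tail_of (ini _) n0 hn tl hj
    have b3 := mul_le_mul_of_nonneg_left (mem_alg (w := w) (j := ⌊x.1 - c.t1⌋₊) e0 e1 m0 (Q0 _))
      (sq_nonneg (c.C R))
    rw [← mul_pow] at b3
    exact ⟨(I.near.n1 R hR x hx a r _ _ P' T' i).trans b3,
      fun hF => (I.near.n2 R hR x hx a r hF _ _ P' T' i).trans b3⟩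

/-- One sequence of bounds for all levels. -/
theorem glob {f : E6 → ℝ} {ρ t Q N : ℝ} {β : ℕ → ℝ} (β0 : ∀ i, 0 ≤ β i)
    (hβ : ∀ i : ℕ, Sup E f ρ (t + i) (β i)) (hN : 0 ≤ N)
    (h : ∀ y ∈ E.O1, ∃ m : ℕ → ℝ, (∀ i, 0 ≤ m i) ∧ (∀ k, sm Q k m ≤ N) ∧
      ∀ i : ℕ, t + i ≤ y.1 → Sup E f ρ (t + i) (m i)) :
    ∃ n : ℕ → ℝ, (∀ i, 0 ≤ n i) ∧ (∀ i, n i ≤ β i) ∧ (∀ i : ℕ, Sup E f ρ (t + i) (n i)) ∧
      ∀ k, sm Q k n ≤ N := by
  let S : ℕ → Set ℝ := fun i => {x | 0 ≤ x ∧ Sup E f ρ (t + i) x}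
  have ne : ∀ i, (S i).Nonempty := fun i => ⟨β i, β0 i, hβ i⟩
  have n0 : ∀ i, 0 ≤ sInf (S i) := fun i => le_csInf (ne i) fun _ h => h.1
  have le : ∀ i, ∀ x ∈ S i, sInf (S i) ≤ x := fun i x hx => csInf_le ⟨0, fun _ h => h.1⟩ hx
  refine ⟨fun i => sInf (S i), n0, fun i => le i _ ⟨β0 i, hβ i⟩,
    fun i y hy a1 a2 a3 a4 => le_csInf (ne i) fun _ h => h.2 y hy a1 a2 a3 a4, fun k => ?_⟩
  suffices ∀ k, ∑ j ∈ range k, wt Q j * sInf (S j) ≤ N from this _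
  intro k
  induction k with
  | zero => simpa using hN
  | succ k ih =>
    by_cases e : ∃ y ∈ E.O1, t + k ≤ y.1
    · obtain ⟨y, hy, ht⟩ := e
      obtain ⟨m, m0, m1, m2⟩ := h y hy
      refine le_trans (sum_le_sum fun j hj => mul_le_mul_of_nonneg_left (le j _ ⟨m0 j, m2 j ?_⟩)
        (wt_pos Q j).le) (m1 k)
      have : (j : ℝ) ≤ k := by exact_mod_cast Nat.lt_succ_iff.1 (mem_range.1 hj)
      linarith
    · have := le k 0 ⟨le_rfl, fun y hy _ _ a _ => (e ⟨y, hy, a⟩).elim⟩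
      rw [sum_range_succ]
      linarith [mul_nonpos_of_nonneg_of_nonpos (wt_pos Q k).le this]

end Vale.Agent.P354CO
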