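import Vale.Agent.P354CO.Gi

/-! The chain at one level: hierarchy, extension, lens. -/

open scoped ENNReal
open Set Finset MeasureTheory

noncomputable section

namespace Vale.Agent.P354CO

open Vale.Agent.P354XG Vale.Agent.P354XD Vale.Agent.P354XI Vale.Agent.P354XR Vale.Agent.P354Z
open Vale.Agent.P354CV
open Vale.Agent.P354YH

variable {c : Cs} {E : Est} {Tb : Tab}

theorem Ord.shift {P : ℕ → ℕ → ℝ → Cs → Prop} (h : Ord P) :
    Ord fun m L R c => P m L (R + 2) c := by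
  intro z a
  obtain ⟨m0, h⟩ := h z a
  refine ⟨m0, fun m hm => ?_⟩
  obtain ⟨N1, h⟩ := h m hm
  refine ⟨N1, fun b hb => ?_⟩
  obtain ⟨Lm, h⟩ := h b hb
  refine ⟨Lm, fun L hL => ?_⟩
  obtain ⟨R0, h⟩ := h L hL
  exact ⟨R0, fun R hR => h (R + 2) (by linarith)⟩

theorem At.upd (M : TMON Tb) {m L : ℕ} {δ ε s T D δ' D' : ℝ} (h : At c E Tb m L δ ε s T D)
    (e : δ ≤ δ') (e1 : D ≤ D') (e2 : D' ≤ δ') : At c E Tb m L δ' ε s T D' :=
  ⟨h.bo, h.le.trans e, h.lv, h.top, M _ _ _ _ _ _ _ e h.tb, h.D0.trans e1, e2⟩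

/-- The lens is added to the slabs. -/
theorem lens (o : c.Ok) (h : E.Shape c) {Q T D C s1 s2 ρ : ℝ} {n n' : ℕ} (q0 : 0 ≤ Q)
    (q3 : Q ≤ 3) (hn : n ≤ n') (hs : s1 ≤ s2) (hC : 0 ≤ C) (hD : E.e0 ^ 2 ≤ D)
    (h1 : Sl c Q (Ys c E n' s2 ρ) (T + 1) D)
    (h2 : ∀ D, 0 ≤ D → (T ≤ c.t1 → E.e0 ^ 2 ≤ D) → Ys c E n s1 ρ (T + 1) (T + c.B) ≤
      ENNReal.ofReal C * (Ys c E n' s2 ρ T (T + 1) + ENNReal.ofReal D)) :
    Sl c Q (Ys c E n s1 ρ) (T + c.B) ((1 + (⌈c.B⌉₊ + 2) * (wt 3 (⌈c.B⌉₊ + 1) * C * 4)) * D) := by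
  classical
  have D0 := (sq_nonneg _).trans hD
  obtain ⟨u, u0, u1, u2⟩ := h1.real D0
  obtain ⟨j, hj⟩ : ∃ j, j = ⌊T - c.t1⌋₊ := ⟨_, rfl⟩
  have f1 : T - c.t1 < j + 1 := hj ▸ Nat.lt_floor_add_one _
  have f2 := Nat.le_ceil c.B
  obtain ⟨d, d0, d1, d2⟩ : ∃ d, 0 ≤ d ∧ (T ≤ c.t1 → E.e0 ^ 2 ≤ d) ∧ wt Q j * d ≤ D := by
    by_cases e : T ≤ c.t1
    · exact ⟨D, D0, fun _ => hD, by rw [hj, Nat.floor_of_nonpos (sub_nonpos.2 e), wt_zero, one_mul]⟩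
    · exact ⟨0, le_rfl, fun k => (e k).elim, by rwa [mul_zero]⟩
  have s0 : 0 ≤ u j + u (j + 1) + u (j + 2) := add_nonneg (add_nonneg (u0 _) (u0 _)) (u0 _)
  have a : Ys c E n' s2 ρ T (T + 1) ≤ ENNReal.ofReal (u j + u (j + 1) + u (j + 2)) := by
    rcases le_total T c.t1 with e | e
    · obtain rfl : j = 0 := hj.trans (Nat.floor_of_nonpos (sub_nonpos.2 e))
      refine le_trans (Yz_mono E _ fun y hy _ k => ?_) ((u2 0).trans
        (ENNReal.ofReal_le_ofReal (by linarith [u0 (0 + 1), u0 (0 + 2)])))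
      exact ⟨k.1, k.2.1, k.2.2.1, (h.rad1 y hy).2.2, le_min (by
        push_cast; linarith [k.2.2.2.2]) k.2.2.2.2⟩
    · have f0 : (j : ℝ) ≤ T - c.t1 := hj ▸ Nat.floor_le (sub_nonneg.2 e)
      exact cover (Z := Zs c E s2 ρ) (ok_B o) _ u0 u2 fun y _ _ k => ⟨by linarith [k.2.2.2.1],
        by linarith [k.2.2.2.2], k.2.2.2.2, fun _ _ a b => ⟨k.1, k.2.1, k.2.2.1, a, b⟩⟩
  obtain ⟨X, X0, X1, X2⟩ : ∃ X, 0 ≤ X ∧ wt Q j * X ≤ C * 4 * D ∧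
      Ys c E n s1 ρ (T + 1) (T + c.B) ≤ ENNReal.ofReal X := by
    refine ⟨C * (u j + u (j + 1) + u (j + 2) + d), by positivity, ?_, (h2 d d0 d1).trans ?_⟩
    · have := wt_le_sm (u := fun j => u j + u (j + 1) + u (j + 2))
        (fun j => add_nonneg (add_nonneg (u0 _) (u0 _)) (u0 _)) (sm_three q0 u0 u1) j
      linarith [mul_le_mul_of_nonneg_left (add_le_add this d2) hC]
    · rw [ENNReal.ofReal_mul hC, ENNReal.ofReal_add s0 d0]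
      exact mul_le_mul_right (add_le_add a le_rfl) _
  let γ : ℕ → ℝ := fun i => if j ≤ i ∧ i < j + (⌈c.B⌉₊ + 2) then X else 0
  have γ0 : ∀ i, 0 ≤ γ i := fun i => by
    simp only [γ]; split_ifs
    exacts [X0, le_rfl]
  have w3 := wt_pos 3 (⌈c.B⌉₊ + 1)
  refine sl_of (u := fun i => u i + γ i) (fun i => add_nonneg (u0 i) (γ0 i)) (fun k => ?_)
    fun i => ?_
  · rw [sm_add]
    have := sm_win (Q := Q) (β := γ) (b := wt 3 (⌈c.B⌉₊ + 1) * (C * 4 * D)) (by positivity) j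
      (⌈c.B⌉₊ + 2) (fun i => ?_) (fun i e => by_contra fun k => e (if_neg k)) k
    · push_cast at this
      linarith [u1 k]
    simp only [γ]; split_ifs with e
    · refine (mul_le_mul_of_nonneg_right ((wt_mono q0 (show i ≤ j + (⌈c.B⌉₊ + 1) by omega)).trans
        (wt_addle q0 _ _)) X0).trans ?_
      rw [mul_assoc]
      exact mul_le_mul (wt_le_wt q3 _) X1 (mul_nonneg (wt_pos _ _).le X0) w3.le
    · rw [mul_zero]; positivity
  have b : ∀ a b, Ys c E n s1 ρ a b ≤ Ys c E n' s2 ρ a b := fun a b =>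
    Ys_mono hn hs le_rfl le_rfl le_rfl
  rw [ENNReal.ofReal_add (u0 i) (γ0 i)]
  by_cases e : j ≤ i ∧ i < j + (⌈c.B⌉₊ + 2)
  · refine (Yz_union _ (Z1 := Zs c E s1 ρ (lo c i) (min (c.t1 + i + 1) (T + 1)))
      (Z2 := Zs c E s1 ρ (T + 1) (T + c.B)) fun y _ _ k => ?_).trans
      (add_le_add ((b _ _).trans (u2 i)) (X2.trans_eq (congrArg _ (if_pos e).symm)))
    have := le_min_iff.1 k.2.2.2.2
    exact (le_total y.1 (T + 1)).imp (fun t => ⟨k.1, k.2.1, k.2.2.1, k.2.2.2.1, le_min this.1 t⟩)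
      fun t => ⟨k.1, k.2.1, k.2.2.1, t, this.2⟩
  refine le_add_right (le_trans (Yz_mono E _ fun y _ _ k => ?_) ((b _ _).trans (u2 i)))
  have t := le_min_iff.1 k.2.2.2.2
  refine ⟨k.1, k.2.1, k.2.2.1, k.2.2.2.1, le_min t.1 ?_⟩
  rcases lt_or_ge i j with g | g
  · have f0 : (j : ℝ) ≤ T - c.t1 := by
      rcases le_total T c.t1 with e | e
      · rw [hj, Nat.floor_of_nonpos (sub_nonpos.2 e)] at g; omega
      · exact hj ▸ Nat.floor_le (sub_nonneg.2 e)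
    have : (i : ℝ) < j := by exact_mod_cast g
    linarith [t.1]
  · have g2 : j + (⌈c.B⌉₊ + 2) ≤ i := by omega
    have g3 : (j : ℝ) + (⌈c.B⌉₊ + 2) ≤ i := by exact_mod_cast g2
    have := k.2.2.2.1
    rw [lo, if_neg (by omega)] at this
    linarith [t.2]

/-- What the chain gives at the level s. -/
def Ch (c : Cs) (E : Est) (L : ℕ) (Q R s T D : ℝ) : Prop :=
  (∃ u : ℕ → ℝ, (∀ i, 0 ≤ u i) ∧ (∀ k, sm Q k u ≤ D) ∧
    ∀ i : ℕ, c.t1 + i ≤ T → Sup E (E.eta c.L0) (R + 1) (c.t1 + i) (u i)) ∧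
  ∀ s' < s, Sl c Q (Ys c E (L + 8) s' (c.Rs - 1)) (T + c.B) D

theorem chain (hS : SOBC) (M : TMON Tb) (h1 : SYSO Tb) (h2 : FXS Tb) (h3 : CAP) {Q : ℝ}
    (hQ : Q = 5 / 2 ∨ Q = 14 / 5) : Ord fun m L R c => ∃ δ > 0, ∃ C ≥ 1, ∀ E ε s T D,
      At c E Tb m L δ ε s T D → Dt c E Q D → Ch c E L Q R s T (C * D) := by
  have q0 : 0 ≤ Q := by rcases hQ with rfl | rfl <;> norm_num
  have q3 : Q ≤ 3 := by rcases hQ with rfl | rfl <;> norm_num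
  refine ((h1 Q hQ).shift.and ((h2 Q hQ).and (h3.and (ord_big 5)))).mono ?_
  rintro m L R c o ⟨⟨δ1, p1, C1, c1, h1⟩, ⟨δ2, p2, C2, c2, h2⟩, ⟨δ3, p3, C3, c3, h3⟩, -, -, b1, b2,
    b3, b4⟩
  obtain ⟨δ4, p4, C4, c4, h4⟩ := supt hS o (L := L) (by omega) (by omega)
  obtain ⟨C5, c5, h5⟩ := gi_of o (R := R) (by omega) (by push_cast at b2; linarith)
  obtain ⟨A1, a1, a1'⟩ : ∃ A, 1 ≤ A ∧ C1 ≤ A := ⟨1 + C1, by linarith, by linarith⟩
  obtain ⟨A2, a2, a2'⟩ : ∃ A, 1 ≤ A ∧ C2 ≤ A := ⟨1 + C2, by linarith, by linarith⟩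
  obtain ⟨A3, e3⟩ : ∃ A, A = 1 + (⌈c.B⌉₊ + 2) * (wt 3 (⌈c.B⌉₊ + 1) * C3 * 4) := ⟨_, rfl⟩
  have a3 : 1 ≤ A3 := by
    have := wt_pos 3 (⌈c.B⌉₊ + 1)
    rw [e3]; exact le_add_of_nonneg_right (by positivity)
  have k : 0 < C5 * (C4 * A1) := by positivity
  refine ⟨min (min δ1 δ2) (min (min δ3 δ4) (min δ2 1 / (C5 * (C4 * A1)))), by positivity,
    A3 * (A2 * (C5 * (C4 * A1))), one_le_mul_of_one_le_of_one_le a3 (one_le_mul_of_one_le_of_one_le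
      a2 (one_le_mul_of_one_le_of_one_le c5 (one_le_mul_of_one_le_of_one_le c4 a1))),
    fun E ε s T D h d => ?_⟩
  have D0 := (sq_nonneg _).trans d.1
  have l1 := h.D1
  have l2 := h.le
  simp only [le_min_iff, le_div_iff₀ k] at l1 l2
  have u1 : D ≤ A1 * D := le_mul_of_one_le_left D0 a1
  have u2 : A1 * D ≤ C4 * (A1 * D) := le_mul_of_one_le_left (by linarith) c4
  have u3 : C4 * (A1 * D) ≤ C5 * (C4 * (A1 * D)) := le_mul_of_one_le_left (by linarith) c5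
  have u4 : C5 * (C4 * (A1 * D)) ≤ A2 * (C5 * (C4 * (A1 * D))) :=
    le_mul_of_one_le_left (by linarith) a2
  have u5 : A2 * (C5 * (C4 * (A1 * D))) ≤ A3 * (A2 * (C5 * (C4 * (A1 * D)))) :=
    le_mul_of_one_le_left (by linarith) a3
  have s1 := (h1 E ε s T D (h.upd M ((min_le_left _ _).trans (min_le_left _ _)) le_rfl l1.1.1)
    d).mono (Y' := Yl c E (L + 12) (R + 2)) (mul_le_mul_of_nonneg_right a1' D0) fun _ _ => le_rfl
  obtain ⟨u, u0, us, hu⟩ := h4 E ε h.bo l2.2.1.2 Q q0 q3 (Zl c (R + 2)) (T + c.c0 + 4) (A1 * D)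
    (d.1.trans u1) (s1.mono le_rfl fun _ _ => Yl_mono (by omega) le_rfl le_rfl le_rfl)
  have R0 : R + 1 ≤ c.Rs - 3 := by
    push_cast at b2 b4; linarith [o.Rs, o.R1, (ok_pos o).1]
  have hu' : ∀ y ∈ E.O1, nq y = 1 → y.2.1 ≤ R + 1 → y.1 ≤ T + 2 + c.c0 →
      ∀ i : ℕ, c.t1 + i ≤ y.1 → y.1 ≤ c.t1 + i + 1 → E.eta c.L0 y ≤ u i :=
    fun y hy n r t i t1 t2 => (eta_mono (by omega) y).trans (hu y hy n (r.trans R0)
      (fun z _ a _ dz => by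
        obtain ⟨-, a2, a3⟩ := dist_t dz
        exact ⟨by linarith, fun _ _ x1 x2 => ⟨a, by linarith, x1, x2⟩⟩) i t1 t2)
  have g := h5 E Q (T + 2) _ u h.bo.is q0 q3 (by linarith [l1.2.2.2]) (d.mono (u1.trans u2)) u0 us hu'
  have f := h2 E ε s T _ (h.upd M ((min_le_left _ _).trans (min_le_right _ _))
    (u1.trans (u2.trans u3)) (by linarith [l1.2.2.1])) (s1.mono (u2.trans u3) fun _ _ =>
      Yl_mono le_rfl (by linarith) le_rfl (min_le_min_left _ (by linarith [o.c0]))) g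
  refine ⟨⟨u, u0, fun k => (us k).trans (by linarith), fun i hi y hy n r t1 t2 =>
    hu' y hy n r (by linarith [o.c0]) i t1 t2⟩, fun s' hs => ?_⟩
  have := lens o h.bo.is.shape q0 q3 (show L + 8 ≤ L + 10 by omega)
    (show s' ≤ (s' + s) / 2 by linarith) c3 (d.1.trans (u1.trans (u2.trans (u3.trans u4))))
    ((f _ (by linarith)).mono (mul_le_mul_of_nonneg_right a2' (by linarith)) fun _ _ => le_rfl)
    fun D' x1 x2 => h3 E ε s T h.bo l2.2.1.1 h.lv h.top _ _ D' (by linarith) (by linarith) x1 x2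
  rw [← e3] at this
  exact this.mono (le_of_eq (by ring)) fun _ _ => le_rfl

end Vale.Agent.P354CO
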