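import Vale.Agent.P354Z.Skel
import Vale.Agent.P354CV.Defs
import Vale.Agent.P354CV.Mem
import Vale.Agent.P354SI.Defs
import Vale.Agent.P354YK.Ins
import Vale.Agent.P354YL.Defs
import Vale.Agent.P354FA.Hat

/-!
The rows of the block CORE. The far tables enter as a predicate Tb c E m L s e: all tables hold
below the level s with the size e, with the orders m + 6 (gauge), m and L (curvature), m + 12.
-/

open scoped ENNReal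
open Set Finset

noncomputable section

namespace Vale.Agent.P354CO

open Vale.Agent.P354XG Vale.Agent.P354XD Vale.Agent.P354XI Vale.Agent.P354XR Vale.Agent.P354Z
open Vale.Agent.P354CV
open Vale.Agent.P354YH (wt sm)

abbrev Tab : Type := Cs → Est → ℕ → ℕ → ℝ → ℝ → Prop

/-- The orders of the tables. -/
def od (m L : ℕ) : P354YL.Od := ⟨m + 6, m, L, m + 12⟩

/-- The far tables, in every far chart over the state. -/
def TabE : Tab := fun c E m L s e =>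
  ∀ (Φ : P354YK.Fm) (h : Φ.Ok) (x : h.ch.Pt), Φ.c x.1 = c → Φ.E x.1 = E → c.R1 + 3 ≤ Φ.R0 x.1 →
    rv (Φ.E x.1).tau (h.pt x) < s → P354YL.Tb h.ch Φ.nf Φ.nf0 (P354FA.Vw Φ.nf Φ.nf0 h.ch)
      (od m L) (e * Φ.U0 x.1 ^ 3) x

/-- The filter of the far tables for the system. -/
def GT (P : P354SI.Pr) (m n : ℕ) : Filter (P354SI.St P) :=
  Filter.principal {σ | n + 20 ≤ σ.L + m ∧ m + 6 ≤ σ.L ∧ TabE σ.c σ.E m σ.L σ.s σ.ep}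

theorem GT_anti (P : P354SI.Pr) (m : ℕ) : Antitone (GT P m) := fun _ _ h =>
  Filter.principal_mono.2 fun _ k => ⟨(Nat.add_le_add_right h 20).trans k.1, k.2⟩

/-- The order of the constants: m letters, the order L, the radius R, then all of c. -/
def Ord (P : ℕ → ℕ → ℝ → Cs → Prop) : Prop :=
  ∀ (z : Z1) (a : C1), ∃ m0, ∀ m ≥ m0, ∃ N1, ∀ b : C2, N1 ≤ b.N0 → ∃ Lm, ∀ L ≥ Lm,
    ∃ R0, ∀ R ≥ R0, ∃ K0 Rm, ∀ K ≥ K0, ∀ R2 ≥ Rm, ∀ Rs d, (cs z a b ⟨K, R2, Rs⟩ d).Ok →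
      P m L R (cs z a b ⟨K, R2, Rs⟩ d)

variable (c : Cs) (E : Est)

/-- The assumption. -/
structure Bo (L : ℕ) (ε : ℝ) : Prop where
  is : E.Is c
  dec : E.Dec L (7 / 5) ε
  e0 : E.e0 ≤ ε
  pos : 0 < ε

/-- The weighted sum over the slabs below the time T; the slab 0 starts at the bottom. -/
def lo (j : ℕ) : ℝ := if j = 0 then -c.B else c.t1 + j
def Sl (Q : ℝ) (Y : ℝ → ℝ → ℝ≥0∞) (T D : ℝ) : Prop :=
  ∀ k, ∑ j ∈ range (k + 1), ENNReal.ofReal (wt Q j) * Y (lo c j) (min (c.t1 + j + 1) T) ≤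
    ENNReal.ofReal D

/-- The data and the drift of the parameters. -/
def Dt (Q D : ℝ) : Prop :=
  E.e0 ^ 2 ≤ D ∧ ∃ n q : ℕ → ℝ, (∀ i, 0 ≤ n i) ∧
    (∀ i : ℕ, Sup E (E.eta c.L0) (c.R1 + 4) (c.t1 + i) (n i)) ∧ Tl n q ∧
    ∀ k, sm Q k (fun j => q j ^ 2) ≤ D

/-- The distance to Kerr on r ≤ R, t ≤ T. -/
def Gi (Q R T D : ℝ) : Prop :=
  (c.B * (E.e0 + |E.M - c.M| + |E.a - c.a|)) ^ 2 ≤ D ∧ ∃ b : ℕ → ℝ, (∀ j, 0 ≤ b j) ∧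
    (∀ k, sm Q k b ≤ D) ∧ ∀ x ∈ E.O1, An x → x.2.1 ≤ R → x.1 ≤ T → ∀ i,
      q2 (lt (hp _) (E.p1 c)) x c.N0 (E.d1 c i) ≤ b ⌊x.1 - c.t1⌋₊ ∧ (Est.Fa c x →
        q2 (lt (hp _) (E.p2 c)) x c.N0 (E.d2 c i) ≤ b ⌊x.1 - c.t1⌋₊)

variable (Tb : Tab)

/-- The state at the level s: assumption, time, tables, smallness. -/
structure At (m L : ℕ) (δ ε s T D : ℝ) : Prop where
  bo : Bo c E L ε
  le : ε ≤ δ
  lv : s ∈ E.Lv
  top : E.Top c s T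
  tb : Tb c E m L s δ
  D0 : ε ^ 3 ≤ D
  D1 : D ≤ δ

/-- SYSO: the hierarchy, up to the lid and a little beyond the time T. -/
def SYSO : Prop := ∀ Q, Q = 5 / 2 ∨ Q = 14 / 5 → Ord fun m L R c => ∃ δ > 0, ∃ C ≥ 0,
  ∀ E ε s T D, At c E Tb m L δ ε s T D → Dt c E Q D →
    Sl c Q (Yl c E (L + 12) R) (T + c.c0 + 4) (C * D)

/-- FXS: the extension to the radius Rs - 1, below the level s. -/
def FXS : Prop := ∀ Q, Q = 5 / 2 ∨ Q = 14 / 5 → Ord fun m L R c => ∃ δ > 0, ∃ C ≥ 0,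
  ∀ E ε s T D, At c E Tb m L δ ε s T D → Sl c Q (Yl c E (L + 12) R) (T + 2) D →
    Gi c E Q R (T + 2) D → ∀ s' < s, Sl c Q (Ys c E (L + 10) s' (c.Rs - 1)) (T + 1) (C * D)

/-- CAP: the lens. -/
def CAP : Prop := Ord fun _ L _ c => ∃ δ > 0, ∃ C ≥ 0, ∀ E ε s T, Bo c E L ε → ε ≤ δ →
  s ∈ E.Lv → E.Top c s T → ∀ s1 s2 D, s1 < s2 → s2 < s → 0 ≤ D → (T ≤ c.t1 → E.e0 ^ 2 ≤ D) →
    Ys c E (L + 8) s1 (c.Rs - 1) (T + 1) (T + c.B) ≤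
      ENNReal.ofReal C * (Ys c E (L + 10) s2 (c.Rs - 1) T (T + 1) + ENNReal.ofReal D)

/-- FTE: the tables, by continuity. -/
def FTE : Prop := Ord fun m L R c => ∀ A ≥ 0, ∃ δ > 0, ∃ C ≥ 0, ∀ E ε, Bo c E L ε → ε ≤ δ →
  (∀ s ∈ E.Lv, ∀ T, E.Top c s T → Tb c E m L s (C * ε) → Gi c E (5 / 2) R (T + c.B) (A * ε ^ 2) ∧
    ∀ s' < s, Sl c (5 / 2) (Ys c E (L + 8) s' R) (T + c.B) (A * ε ^ 2)) →
  ∀ s ∈ E.Lv, Tb c E m L s (C * ε)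

/-- FSE: the decay near the outer radius. -/
def FSE : Prop := Ord fun m L R c => ∃ δ > 0, ∃ C ≥ 0, ∀ E ε s T D, At c E Tb m L δ ε s T D →
  Gi c E (14 / 5) R (T + c.B) D → ∀ s' < s, Sl c (14 / 5) (Ys c E (L + 8) s' R) (T + c.B) D →
    ∀ x ∈ E.O1, nq x = 1 → Est.Ab c x → c.Rs - 3 ≤ x.2.1 → rv E.sig x < s' →
      E.eta L x ≤ C * D * (1 + |x.1|) ^ (-(14 / 5) : ℝ)

/-- The tables are monotone in the size. -/
def TMON : Prop := ∀ c E m L s e e', e ≤ e' → Tb c E m L s e → Tb c E m L s e'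

/-- The far table of the skeleton. -/
def FTof : Table := fun c E n η =>
  ∃ m L, n ≤ m ∧ 11 ≤ m ∧ m + 6 ≤ L ∧ m + 16 ≤ c.N0 ∧ m ≤ c.K ∧ ∀ s ∈ E.Lv, Tb c E m L s η

theorem Ord.mono {P P' : ℕ → ℕ → ℝ → Cs → Prop} (h : Ord P)
    (e : ∀ m L R c, c.Ok → P m L R c → P' m L R c) : Ord P' := by
  intro z a
  obtain ⟨m0, h⟩ := h z a
  refine ⟨m0, fun m hm => ?_⟩
  obtain ⟨N1, h⟩ := h m hm
  refine ⟨N1, fun b hb => ?_⟩
  obtain ⟨Lm, h⟩ := h b hb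
  refine ⟨Lm, fun L hL => ?_⟩
  obtain ⟨R0, h⟩ := h L hL
  refine ⟨R0, fun R hR => ?_⟩
  obtain ⟨K0, Rm, h⟩ := h R hR
  exact ⟨K0, Rm, fun K hK R2 h2 Rs d o => e _ _ _ _ o (h K hK R2 h2 Rs d o)⟩

theorem Ord.and {P P' : ℕ → ℕ → ℝ → Cs → Prop} (h : Ord P) (h' : Ord P') :
    Ord fun m L R c => P m L R c ∧ P' m L R c := by
  intro z a
  obtain ⟨m0, h⟩ := h z a
  obtain ⟨m0', h'⟩ := h' z a
  refine ⟨max m0 m0', fun m hm => ?_⟩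
  obtain ⟨N1, h⟩ := h m (le_of_max_le_left hm)
  obtain ⟨N1', h'⟩ := h' m (le_of_max_le_right hm)
  refine ⟨max N1 N1', fun b hb => ?_⟩
  obtain ⟨Lm, h⟩ := h b (le_of_max_le_left hb)
  obtain ⟨Lm', h'⟩ := h' b (le_of_max_le_right hb)
  refine ⟨max Lm Lm', fun L hL => ?_⟩
  obtain ⟨R0, h⟩ := h L (le_of_max_le_left hL)
  obtain ⟨R0', h'⟩ := h' L (le_of_max_le_right hL)
  refine ⟨max R0 R0', fun R hR => ?_⟩
  obtain ⟨K0, Rm, h⟩ := h R (le_of_max_le_left hR)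
  obtain ⟨K0', Rm', h'⟩ := h' R (le_of_max_le_right hR)
  exact ⟨max K0 K0', max Rm Rm', fun K hK R2 h2 Rs d o =>
    ⟨h K (le_of_max_le_left hK) R2 (le_of_max_le_left h2) Rs d o,
      h' K (le_of_max_le_right hK) R2 (le_of_max_le_right h2) Rs d o⟩⟩

/-- The orders and radii may be assumed large. -/
theorem ord_big (n : ℕ) : Ord fun m L R c => n ≤ m ∧ m + n ≤ c.N0 ∧ m + c.L0 + n ≤ L ∧
    c.R1 + n ≤ R ∧ L + n ≤ c.K ∧ n * R ≤ c.R2 := fun z _ =>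
  ⟨n, fun m hm => ⟨m + n, fun b hb => ⟨m + b.L0 + n, fun L hL => ⟨z.R1 + n, fun R hR =>
    ⟨L + n, n * R, fun _ hK _ h2 _ _ _ => ⟨hm, hb, hL, hR, hK, h2⟩⟩⟩⟩⟩⟩

end Vale.Agent.P354CO
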