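import Vale.Agent.P354CO.All

/-! The two runs and the block CORE. -/

open scoped ENNReal
open Set Finset MeasureTheory

noncomputable section

namespace Vale.Agent.P354CO

open Vale.Agent.P354XG Vale.Agent.P354XD Vale.Agent.P354XI Vale.Agent.P354XR Vale.Agent.P354Z
open Vale.Agent.P354CV
open Vale.Agent.P354YH

variable {c : Cs} {E : Est} {Tb : Tab}

theorem Bo.sup {L : ℕ} {ε : ℝ} (o : c.Ok) (h : Bo c E L ε) (hL : c.L0 ≤ L) (ρ : ℝ) (i : ℕ) :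
    Sup E (E.eta c.L0) ρ (c.t1 + i) (ε ^ 2 * wt (-(2 * (7 / 5))) i) :=
  dec_sup (by linarith [o.t1]) (by norm_num) (h.dec0 hL) ρ i

theorem dec_nn (ε q : ℝ) (i : ℕ) : 0 ≤ ε ^ 2 * wt q i := mul_nonneg (sq_nonneg _) (wt_pos _ _).le

theorem Bo.sq {L : ℕ} {ε : ℝ} (h : Bo c E L ε) : E.e0 ^ 2 ≤ ε ^ 2 :=
  pow_le_pow_left₀ h.is.near.e0 h.e0 2

theorem dt1 : ∃ A ≥ 1, ∀ (c : Cs) E L ε, c.Ok → Bo c E L ε → c.L0 ≤ L → ε ≤ 1 →
    Dt c E (5 / 2) (A * ε ^ 2) := by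
  obtain ⟨C, hC, h⟩ := tail0 (p := 2 * (7 / 5)) (q2 := 5 / 2) (by norm_num) (by norm_num) 0
  refine ⟨1 + C, by linarith, fun c E L ε o b hL e1 => ?_⟩
  obtain ⟨q, h1, h2⟩ := h (dec_nn ε _) (wt_dec ε (7 / 5))
  have e2 : ε ^ 2 ≤ 1 := pow_le_one₀ b.pos.le e1
  have e3 := mul_nonneg hC (sq_nonneg ε)
  refine ⟨by linarith [b.sq], _, q, dec_nn ε _, b.sup o hL _, h1, fun k => (h2 k).trans ?_⟩
  nlinarith [sq_nonneg ε]

theorem top_le (o : c.Ok) {s T : ℝ} (h : E.Top c s T) {y : E6} (hy : y ∈ E.O1)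
    (hs : rv E.sig y < s) : y.1 ≤ T + c.B :=
  (le_total T y.1).elim (fun e => (h.lens y hy hs e).2) fun e => by linarith [o.B]

theorem pick (h : E.Shape c) {y : E6} (hy : y ∈ E.O1) :
    ∃ s ∈ E.Lv, rv E.sig y < s ∧ ∃ T, E.Top c s T := by
  obtain ⟨r, hr, e⟩ := Metric.isOpen_iff.1 h.lvO _ (h.lv1 y hy)
  have m : rv E.sig y + r / 2 ∈ E.Lv := e (by
    rw [Metric.mem_ball, Real.dist_eq, add_sub_cancel_left, abs_of_pos (by linarith)]; linarith)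
  exact ⟨_, m, by linarith, h.top _ m⟩

/-- The suprema and the distance to Kerr up to the top of the lens. -/
def Up (c : Cs) (E : Est) (L : ℕ) (Q R s T D : ℝ) : Prop :=
  (∃ u : ℕ → ℝ, (∀ i, 0 ≤ u i) ∧ (∀ k, sm Q k u ≤ D) ∧
    ∀ i : ℕ, c.t1 + i ≤ T + (c.B + c.c0) → Sup E (E.eta c.L0) (R + 1) (c.t1 + i) (u i)) ∧
  Gi c E Q R (T + c.B) D ∧ ∀ s' < s, Sl c Q (Ys c E (L + 8) s' R) (T + c.B) D

theorem up_of (o : c.Ok) (hK : c.L0 ≤ c.K + 2) {R : ℝ} (hR : c.R1 + 3 ≤ R) (hR' : R ≤ c.Rs - 1) :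
    ∃ δ > 0, ∃ C ≥ 1, ∀ (E : Est) L Q s T D (β : ℕ → ℝ), E.Is c → 0 ≤ Q → Q ≤ 3 → D ≤ δ →
      Dt c E Q D → Ch c E L Q R s T D → (∀ i, 0 ≤ β i) → (∀ i, wt Q i * β i ≤ D) →
      (∀ i : ℕ, Sup E (E.eta c.L0) (R + 1) (c.t1 + i) (β i)) → Up c E L Q R s T (C * D) := by
  obtain ⟨C, hC, h⟩ := gi_of o hK hR
  obtain ⟨A, e⟩ : ∃ A : ℝ, A = 1 + (⌈c.B + c.c0⌉₊ + 2) := ⟨_, rfl⟩
  have a : 1 ≤ A := e ▸ le_add_of_nonneg_right (by positivity)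
  refine ⟨1 / A, by positivity, C * A, one_le_mul_of_one_le_of_one_le hC a,
    fun E L Q s T D β I q0 q3 hD d ⟨⟨u, u0, u1, u2⟩, hs⟩ β0 β1 β2 => ?_⟩
  have D0 := (sq_nonneg _).trans d.1
  rw [le_div_iff₀ (by linarith)] at hD
  have v1 : D ≤ A * D := le_mul_of_one_le_left D0 a
  have v2 : A * D ≤ C * (A * D) := le_mul_of_one_le_left (by linarith) hC
  obtain ⟨n, n0, n1, n2⟩ := patch (p := fun i => Sup E (E.eta c.L0) (R + 1) (c.t1 + i))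
    (W := c.B + c.c0) D0 u0 β0 u1 β1 (fun _ _ _ e h => h.mono le_rfl e) u2 β2
  have n3 : ∀ k, sm Q k n ≤ A * D := fun k => (n1 k).trans_eq (by rw [e]; ring)
  rw [mul_assoc]
  exact ⟨⟨n, n0, fun k => (n3 k).trans v2, n2⟩, h E Q _ _ n I q0 q3 (by linarith) (d.mono v1) n0 n3
    fun y hy a r t i t1 t2 => n2 i (by linarith) y hy a r t1 t2, fun s' e => (hs s' e).mono
      (v1.trans v2) fun _ _ => Ys_mono le_rfl le_rfl hR' le_rfl le_rfl⟩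

theorem rad_le (o : c.Ok) {R : ℝ} (h1 : c.R1 + (5 : ℕ) ≤ R) (h2 : (5 : ℕ) * R ≤ c.R2) :
    c.R1 + 3 ≤ R ∧ R + 1 ≤ c.Rs - 3 := by
  push_cast at h1 h2
  exact ⟨by linarith, by linarith [o.Rs, o.R1, (ok_pos o).1]⟩

theorem small {ε A δ : ℝ} (h0 : 0 < ε) (h1 : ε ≤ 1) (hA : 0 < A) (h : ε ≤ δ / A) :
    A * ε ^ 2 ≤ δ := by
  rw [le_div_iff₀ hA] at h
  nlinarith [mul_nonneg hA.le (mul_nonneg h0.le (sub_nonneg.2 h1))]

section
variable (hS : SOBC) (M : TMON Tb) (h1 : SYSO Tb) (h2 : FXS Tb) (h3 : CAP)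
include hS M h1 h2 h3

/-- The first run at one level. -/
theorem lev1 : Ord fun m L R c => ∃ δ > 0, ∃ δ' > 0, ∃ A ≥ 1, ∀ E ε s T, Bo c E L ε → ε ≤ δ' →
    s ∈ E.Lv → E.Top c s T → Tb c E m L s δ → Up c E L (5 / 2) R s T (A * ε ^ 2) := by
  refine ((chain hS M h1 h2 h3 (.inl rfl)).and (ord_big 5)).mono ?_
  rintro m L R c o ⟨⟨δ1, p1, C1, c1, h1⟩, -, -, b1, b2, b3, b4⟩
  obtain ⟨r1, r2⟩ := rad_le o b2 b4
  obtain ⟨δ2, p2, C2, c2, h2⟩ := up_of o (by omega) r1 (by linarith)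
  obtain ⟨A, a, hA⟩ := dt1
  have k := one_le_mul_of_one_le_of_one_le c1 a
  refine ⟨δ1, p1, min (min 1 δ1) (min (δ1 / A) (δ2 / (C1 * A))), by positivity, C2 * (C1 * A),
    one_le_mul_of_one_le_of_one_le c2 k, fun E ε s T b he hs ht tb => ?_⟩
  simp only [le_min_iff] at he
  have e0 := b.pos
  have d := hA c E L ε o b (by omega) he.1.1
  have v1 : ε ^ 2 ≤ A * ε ^ 2 := le_mul_of_one_le_left (sq_nonneg _) a
  have v2 : A * ε ^ 2 ≤ C1 * (A * ε ^ 2) := le_mul_of_one_le_left (by positivity) c1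
  have g := h1 E ε s T _ ⟨b, he.1.2, hs, ht, tb, (pow_le_pow_of_le_one e0.le he.1.1
    (by norm_num)).trans v1, small e0 he.1.1 (by linarith) he.2.1⟩ d
  have := h2 E L _ s T _ _ b.is (by norm_num) (by norm_num) ((mul_assoc _ _ _).symm.trans_le
    (small e0 he.1.1 (by linarith) he.2.2)) (d.mono v2) g (dec_nn ε _) (fun i =>
      ((mul_le_mul_of_nonneg_right (wt_le_wt (by norm_num) i) (dec_nn ε _ i)).trans
        (wt_dec ε (7 / 5) i)).trans (v1.trans v2)) (b.sup o (by omega) _)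
  rwa [mul_assoc, mul_assoc]

/-- The tables. -/
theorem run1 (h4 : FTE Tb) : Ord fun m L _ c => ∃ δ > 0, ∃ C > 0, ∀ E ε, Bo c E L ε → ε ≤ δ →
    ∀ s ∈ E.Lv, Tb c E m L s (C * ε) := by
  refine ((lev1 hS M h1 h2 h3).and h4).mono ?_
  rintro m L R c - ⟨⟨δ1, p1, δ2, p2, A, a, h1⟩, h4⟩
  obtain ⟨δ3, p3, C, hC, h4⟩ := h4 A (by linarith)
  refine ⟨min (min δ2 δ3) (δ1 / (C + 1)), by positivity, C + 1, by linarith,
    fun E ε b he s hs => ?_⟩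
  simp only [le_min_iff, le_div_iff₀ (show 0 < C + 1 by linarith)] at he
  have := b.pos
  exact M _ _ _ _ _ _ _ (by linarith) (h4 E ε b he.1.2 (fun s hs T ht tb =>
    (h1 E ε s T b he.1.1 hs ht (M _ _ _ _ _ _ _ (by linarith) tb)).2) s hs)

/-- The drift of the parameters in the second run. -/
theorem dt2 (h4 : FTE Tb) : Ord fun _ L _ c => ∃ δ > 0, ∃ A ≥ 1, ∀ E ε, Bo c E L ε → ε ≤ δ →
    Dt c E (14 / 5) (A * (E.e0 ^ 2 + ε ^ 3)) := by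
  refine ((lev1 hS M h1 h2 h3).and ((run1 hS M h1 h2 h3 h4).and (ord_big 5))).mono ?_
  rintro m L R c o ⟨⟨δ1, p1, δ2, p2, A, a, h1⟩, ⟨δ3, p3, C, hC, h4⟩, -, -, b1, b2, -, b4⟩
  obtain ⟨r1, -⟩ := rad_le o b2 b4
  obtain ⟨C2, c2, h2⟩ := tail (p := 2 * (7 / 5)) (q := 5 / 2) (q2 := 14 / 5) (by norm_num)
    (by norm_num) (by norm_num) 0
  have z : 0 ≤ C2 * A := by positivity
  refine ⟨min (min δ2 δ3) (min 1 (δ1 / C)), by positivity, 1 + C2 * A, by linarith,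
    fun E ε b he => ?_⟩
  simp only [le_min_iff, le_div_iff₀ hC] at he
  have e0 := b.pos
  obtain ⟨n, n0, n1, n2, n3⟩ := glob (Q := 5 / 2) (N := A * ε ^ 2) (dec_nn ε _)
    (b.sup o (by omega) (c.R1 + 4)) (by positivity) fun y hy => by
      obtain ⟨s, hs, e, T, ht⟩ := pick b.is.shape hy
      obtain ⟨u, u0, u1, u2⟩ := (h1 E ε s T b he.1.1 hs ht
        (M _ _ _ _ _ _ _ (by linarith) (h4 E ε b he.1.2 s hs))).1
      exact ⟨u, u0, u1, fun i hi => (u2 i (by linarith [top_le o ht hy e, o.c0])).mono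
        (by linarith) le_rfl⟩
  obtain ⟨q, q1, q2⟩ := h2 n0 (fun i => (mul_le_mul_of_nonneg_left (n1 i) (wt_pos _ _).le).trans
    (wt_dec ε (7 / 5) i)) n3
  have e3 : 0 ≤ ε ^ 3 := by positivity
  have e4 : ε ^ 4 ≤ ε ^ 3 := pow_le_pow_of_le_one e0.le he.2.1 (by norm_num)
  have e5 := sq_nonneg E.e0
  refine ⟨by nlinarith, n, q, n0, n2, q1, fun k => (q2 k).trans ?_⟩
  nlinarith [mul_le_mul_of_nonneg_left e4 z, mul_nonneg z e5]

end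

theorem wt_cmp {x G : ℝ} {i : ℕ} (hx : 0 < x) (hG : 1 ≤ G) (h : x ≤ G * (1 + i)) :
    wt (-(14 / 5)) i ≤ G ^ 3 * x ^ (-(14 / 5) : ℝ) := by
  have a := rpow_cmp (q := 14 / 5) (by norm_num) (by norm_num) hx.le (by positivity) hG h
  rw [wt, Real.rpow_neg (by positivity), Real.rpow_neg hx.le, ← div_eq_mul_inv,
    le_div_iff₀ (by positivity), inv_mul_le_iff₀ (by positivity), mul_comm]
  exact a

/-- The second run. -/
theorem run2 (hS : SOBC) (M : TMON Tb) (h1 : SYSO Tb) (h2 : FXS Tb) (h3 : CAP) (h4 : FTE Tb)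
    (h5 : FSE Tb) : Ord fun _ L _ c => ∃ δ > 0, ∃ C ≥ 1, ∀ E ε, Bo c E L ε → ε ≤ δ →
      ∀ η, C * (E.e0 ^ 2 + ε ^ 3) ≤ η ^ 2 → E.Dec L (7 / 5) η := by
  refine ((chain hS M h1 h2 h3 (.inr rfl)).and ((run1 hS M h1 h2 h3 h4).and
    ((dt2 hS M h1 h2 h3 h4).and (h5.and (ord_big 5))))).mono ?_
  rintro m L R c o ⟨⟨δ1, p1, C1, c1, h1⟩, ⟨δ2, p2, C2, c2, h2⟩, ⟨δ3, p3, C3, c3, h3⟩,
    ⟨δ5, p5, C5, c5, h5⟩, -, -, b1, b2, b3, b4⟩
  obtain ⟨r1, r2⟩ := rad_le o b2 b4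
  obtain ⟨δ4, p4, C4, c4, h4⟩ := supt hS o (L := L) (by omega) (by omega)
  obtain ⟨δ6, p6, C6, c6, h6⟩ := up_of o (by omega) r1 (by linarith)
  obtain ⟨G, hG⟩ : ∃ G, G = 2 + c.B + c.t1 := ⟨_, rfl⟩
  have G1 : 1 ≤ G := by linarith [o.B, o.t1]
  have G3 : 1 ≤ G ^ 3 := one_le_pow₀ G1
  have k1 := one_le_mul_of_one_le_of_one_le c4 c1
  have k2 := one_le_mul_of_one_le_of_one_le c6 k1
  have k3 := one_le_mul_of_one_le_of_one_le k2 c3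
  obtain ⟨δ, p, l1, l5, l6⟩ : ∃ δ > 0, δ ≤ δ1 ∧ δ ≤ δ5 ∧ δ ≤ δ6 := ⟨min δ1 (min δ5 δ6),
    by positivity, min_le_left _ _, (min_le_right _ _).trans (min_le_left _ _),
    (min_le_right _ _).trans (min_le_right _ _)⟩
  refine ⟨min (min (min δ2 δ3) (min δ4 1)) (min (min δ (δ / C2)) (δ / (C6 * (C4 * C1) * C3 * 2))),
    by positivity, (G ^ 3 + C5) * (C6 * (C4 * C1) * C3), one_le_mul_of_one_le_of_one_le
      (by linarith) k3, fun E ε b he η hη => ?_⟩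
  simp only [le_min_iff, le_div_iff₀ c2] at he
  obtain ⟨⟨⟨e2, e3⟩, e4, e1⟩, ⟨e5, e6⟩, e7⟩ := he
  have e0 := b.pos
  have e8 := small e0 e1 (by linarith) e7
  have e9 : ε ^ 3 ≤ ε ^ 2 := pow_le_pow_of_le_one e0.le e1 (by norm_num)
  have d := h3 E ε b e3
  have z : 0 ≤ E.e0 ^ 2 + ε ^ 3 := by positivity
  have s1 := mul_le_mul_of_nonneg_left (show E.e0 ^ 2 + ε ^ 3 ≤ 2 * ε ^ 2 by linarith [b.sq])
    (zero_le_one.trans k3)
  have s2 : ε ^ 3 ≤ C3 * (E.e0 ^ 2 + ε ^ 3) :=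
    (le_add_of_nonneg_left (sq_nonneg _)).trans (le_mul_of_one_le_left z c3)
  obtain ⟨D, hD⟩ : ∃ D, D = C3 * (E.e0 ^ 2 + ε ^ 3) := ⟨_, rfl⟩
  rw [mul_assoc, mul_assoc _ C3, ← hD] at hη
  rw [mul_assoc _ C3, ← hD] at s1
  rw [← hD] at d s2
  have D0 := (sq_nonneg _).trans d.1
  have v1 : D ≤ C1 * D := le_mul_of_one_le_left D0 c1
  have v2 : C1 * D ≤ C4 * (C1 * D) := le_mul_of_one_le_left (by linarith) c4
  have v3 : C4 * (C1 * D) ≤ C6 * (C4 * (C1 * D)) := le_mul_of_one_le_left (by linarith) c6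
  have v4 : C6 * (C4 * (C1 * D)) ≤ δ := by linarith
  have at' : ∀ s ∈ E.Lv, ∀ T, E.Top c s T → At c E Tb m L δ ε s T D := fun s hs T ht =>
    ⟨b, e5, hs, ht, M _ _ _ _ _ _ _ (by linarith) (h2 E ε b e2 s hs), s2, by linarith⟩
  have ch : ∀ s ∈ E.Lv, ∀ T, E.Top c s T → Ch c E L (14 / 5) R s T (C1 * D) := fun s hs T ht =>
    h1 E ε s T D ((at' s hs T ht).upd M l1 le_rfl (by linarith)) d
  have pw : ∀ x ∈ E.O1, nq x = 1 → x.2.1 ≤ c.Rs - 3 → ∀ i : ℕ, c.t1 + i ≤ x.1 →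
      x.1 ≤ c.t1 + i + 1 → E.eta L x ≤ C4 * (C1 * D) * wt (-(14 / 5)) i := fun x hx n r i t1 t2 => by
    obtain ⟨s, hs, e, T, ht⟩ := pick b.is.shape hx
    obtain ⟨u, u0, u1, u2⟩ := h4 E ε b e4 (14 / 5) (by norm_num) (by norm_num)
      (Zs c E (rv E.sig x) (c.Rs - 1)) (T + c.B) (C1 * D) (d.1.trans v1)
      (((ch s hs T ht).2 _ e).mono le_rfl fun _ _ => Ys_mono (by omega) le_rfl le_rfl le_rfl le_rfl)
    refine (u2 x hx n r (fun y hy a g dy => ⟨top_le o ht hy (g.trans_lt e), fun _ _ x1 x2 =>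
      ⟨a, g, by linarith [(dist_t dy).2.2], x1, x2⟩⟩) i t1 t2).trans ?_
    have := mul_le_mul_of_nonneg_left (wt_le_sm u0 u1 i) (wt_pos (-(14 / 5)) i).le
    rwa [← mul_assoc, wt_neg, one_mul, mul_comm] at this
  intro x hx n
  have x0 : 0 < 1 + |x.1| := by positivity
  have y0 := Real.rpow_nonneg x0.le (-(14 / 5))
  rw [mul_pow, ← Real.rpow_natCast (_ ^ _), ← Real.rpow_mul x0.le,
    show -(7 / 5) * ((2 : ℕ) : ℝ) = -(14 / 5) by norm_num]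
  refine le_trans ?_ (mul_le_mul_of_nonneg_right hη y0)
  have w0 : 0 ≤ C6 * (C4 * (C1 * D)) * (1 + |x.1|) ^ (-(14 / 5) : ℝ) :=
    mul_nonneg (by linarith) y0
  have fin : ∀ i : ℕ, 1 + |x.1| ≤ G * (1 + i) →
      E.eta L x ≤ C6 * (C4 * (C1 * D)) * wt (-(14 / 5)) i → E.eta L x ≤
        (G ^ 3 + C5) * (C6 * (C4 * C1) * D) * (1 + |x.1|) ^ (-(14 / 5) : ℝ) := fun i g1 g2 => by
    have := mul_le_mul_of_nonneg_left (wt_cmp x0 G1 g1)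
      (show 0 ≤ C6 * (C4 * (C1 * D)) by linarith)
    linarith [mul_nonneg c5 w0]
  rcases le_total x.1 c.t1 with t | t
  · refine fin 0 ?_ ?_
    · have : |x.1| ≤ c.B + c.t1 :=
        abs_le.2 ⟨by linarith [(b.is.shape.rad1 x hx).2.2, o.t1], by linarith [o.B]⟩
      push_cast; linarith
    · rw [wt_zero]
      linarith [(eta_mono (show L ≤ c.K + 2 by omega) x).trans (b.is.near.ini x hx
        ⟨by linarith, by linarith⟩ (by linarith [o.B])), d.1]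
  have f1 := Nat.floor_le (sub_nonneg.2 t)
  have f2 := Nat.lt_floor_add_one (x.1 - c.t1)
  rcases le_total x.2.1 (c.Rs - 3) with r | r
  · refine fin ⌊x.1 - c.t1⌋₊ ?_ ((pw x hx n r _ (by linarith) (by linarith)).trans
      (mul_le_mul_of_nonneg_right v3 (wt_pos _ _).le))
    rw [abs_of_nonneg (by linarith [o.t1])]
    nlinarith [mul_le_mul_of_nonneg_right G1 (Nat.cast_nonneg (α := ℝ) ⌊x.1 - c.t1⌋₊), o.B]
  obtain ⟨s, hs, e, T, ht⟩ := pick b.is.shape hx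
  have c' := ch s hs T ht
  obtain ⟨-, g1, g2⟩ := h6 E L (14 / 5) s T (C4 * (C1 * D))
    (fun i => C4 * (C1 * D) * wt (-(14 / 5)) i) b.is (by norm_num) (by norm_num) (by linarith)
    (d.mono (v1.trans v2)) ⟨c'.1.imp fun u h => ⟨h.1, fun k => (h.2.1 k).trans v2, h.2.2⟩,
      fun s' e => (c'.2 s' e).mono v2 fun _ _ => le_rfl⟩
    (fun i => mul_nonneg (by linarith) (wt_pos _ _).le)
    (fun i => by rw [mul_left_comm, mul_comm (wt _ _), wt_neg, mul_one])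
    fun i y hy n r t1 t2 => (eta_mono (by omega) y).trans (pw y hy n (r.trans r2) i t1 t2)
  have := h5 E ε s T _ ((at' s hs T ht).upd M l5 (v1.trans (v2.trans v3)) (v4.trans l5)) g1
    ((rv E.sig x + s) / 2) (by linarith) (g2 _ (by linarith)) x hx n (ab_of o b.is.shape hx t) r
    (by linarith)
  linarith [mul_nonneg (zero_le_one.trans G3) w0]

/-- The block CORE from its rows. -/
theorem core_of (hS : SOBC) (M : TMON Tb) (h1 : SYSO Tb) (h2 : FXS Tb) (h3 : CAP) (h4 : FTE Tb)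
    (h5 : FSE Tb) : CORE (FTof Tb) := by
  intro z a n
  obtain ⟨m, h⟩ := ((run1 hS M h1 h2 h3 h4).and ((run2 hS M h1 h2 h3 h4 h5).and
    (ord_big (n + 16)))) z a
  obtain ⟨N1, h⟩ := h m le_rfl
  refine ⟨N1, fun b hb => ?_⟩
  obtain ⟨Lm, h⟩ := h b hb
  refine ⟨Lm, fun L hL => ?_⟩
  obtain ⟨R, h⟩ := h L hL
  obtain ⟨K, Rm, h⟩ := h R le_rfl
  refine ⟨K, Rm, fun R2 hR Rs d o => ?_⟩
  obtain ⟨⟨δ1, p1, C1, c1, h1⟩, ⟨δ2, p2, C, hC, h2⟩, b1, b2, b3, -, b4, -⟩ :=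
    h K le_rfl R2 hR Rs d o
  obtain ⟨A, hA⟩ : ∃ A, A = C * (1 + 2 * C ^ 2) := ⟨_, rfl⟩
  have a1 : 1 ≤ A := hA ▸ one_le_mul_of_one_le_of_one_le hC (by nlinarith)
  refine ⟨min (min 1 δ2) (min (δ2 / (2 * C)) (δ1 / (2 * A))), by positivity, (1 + C1) * A,
    by positivity, fun E ε I ⟨e0, he⟩ e1 dec => ?_⟩
  simp only [le_min_iff, le_div_iff₀ (show 0 < 2 * C by linarith),
    le_div_iff₀ (show 0 < 2 * A by linarith)] at he
  obtain ⟨⟨e2, e3⟩, e4, e5⟩ := he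
  have B0 : Bo _ E L ε := ⟨I, dec, e1, e0⟩
  have z0 := I.near.e0
  have z1 := B0.sq
  have z2 : ε ^ 3 ≤ ε ^ 2 := pow_le_pow_of_le_one e0.le e2 (by norm_num)
  have z3 : 0 < ε ^ 3 := by positivity
  obtain ⟨η, η0, hη⟩ : ∃ η, 0 < η ∧ η ^ 2 = C * (E.e0 ^ 2 + ε ^ 3) :=
    ⟨√_, Real.sqrt_pos.2 (by positivity), Real.sq_sqrt (by positivity)⟩
  have y1 : η ≤ 2 * C * ε := by
    refine (abs_le_of_sq_le_sq' ?_ (by positivity)).2
    have := mul_le_mul_of_nonneg_left (add_le_add z1 z2) (zero_le_one.trans hC)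
    nlinarith [mul_nonneg (mul_nonneg (zero_le_one.trans hC) (sub_nonneg.2 hC)) (sq_nonneg ε),
      sq_nonneg (C * ε)]
  have B1 : Bo _ E L η := ⟨I, h2 E ε B0 e3 η hη.ge, (abs_le_of_sq_le_sq' (by
    nlinarith [mul_nonneg (sub_nonneg.2 hC) (sq_nonneg E.e0)]) η0.le).2, η0⟩
  have s0 : 0 < E.e0 + ε ^ 2 := by positivity
  have y2 : C * (E.e0 ^ 2 + η ^ 3) ≤ A * (E.e0 + ε ^ 2) ^ 2 := by
    have u1 : η ^ 3 ≤ 2 * C * ε * (C * (E.e0 ^ 2 + ε ^ 3)) := by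
      rw [pow_succ', hη]
      exact mul_le_mul_of_nonneg_right y1 (by positivity)
    have u2 : ε * (E.e0 ^ 2 + ε ^ 3) ≤ (E.e0 + ε ^ 2) ^ 2 := by
      nlinarith [mul_nonneg z0 (sq_nonneg ε), mul_nonneg (sub_nonneg.2 e2) (sq_nonneg E.e0)]
    have u3 : E.e0 ^ 2 ≤ (E.e0 + ε ^ 2) ^ 2 := pow_le_pow_left₀ z0 (by linarith [sq_nonneg ε]) 2
    rw [hA, mul_assoc]
    refine mul_le_mul_of_nonneg_left ?_ (by linarith)
    linarith [mul_le_mul_of_nonneg_left u2 (show 0 ≤ 2 * C ^ 2 by positivity)]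
  have y3 : ∀ A' ≥ A, E.Dec L (7 / 5) (A' * (E.e0 + ε ^ 2)) := fun A' e =>
    h2 E η B1 (by linarith) _ (y2.trans (by
      rw [mul_pow]
      exact mul_le_mul_of_nonneg_right (by nlinarith) (sq_nonneg _)))
  have y4 : ε ^ 2 ≤ ε := by nlinarith
  have B2 : Bo _ E L (A * (E.e0 + ε ^ 2)) := ⟨I, y3 A le_rfl, (le_add_of_nonneg_right
    (sq_nonneg ε)).trans (le_mul_of_one_le_left s0.le a1), by positivity⟩
  refine ⟨y3 _ (by nlinarith), m, L, by omega, by omega, by omega, by omega, by omega,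
    fun s hs => M _ _ _ _ _ _ _ ?_ (h1 E _ B2 ?_ s hs)⟩
  · linarith [B2.pos]
  · linarith [mul_le_mul_of_nonneg_left (add_le_add e1 y4) (zero_le_one.trans a1)]

end Vale.Agent.P354CO
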