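import Vale.Agent.P354CO.Defs
import Vale.Agent.P354BO.Q2

/-! Sequences and sums over slabs. -/

open scoped ENNReal
open Set Finset MeasureTheory

noncomputable section

namespace Vale.Agent.P354CO

open Vale.Agent.P354XG Vale.Agent.P354XD Vale.Agent.P354XI Vale.Agent.P354XR Vale.Agent.P354Z
open Vale.Agent.P354CV
open Vale.Agent.P354YH

variable {Q D : ℝ} {u : ℕ → ℝ} {c : Cs} {E : Est}

theorem wt_addle (h : 0 ≤ Q) (j w : ℕ) : wt Q (j + w) ≤ wt Q w * wt Q j := by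
  rw [wt, wt, wt, ← Real.mul_rpow (by positivity) (by positivity)]
  refine Real.rpow_le_rpow (by positivity) ?_ h
  push_cast
  nlinarith [mul_nonneg (Nat.cast_nonneg (α := ℝ) w) (Nat.cast_nonneg (α := ℝ) j)]

theorem wt_le_sm (h0 : ∀ j, 0 ≤ u j) (h : ∀ k, sm Q k u ≤ D) (j : ℕ) : wt Q j * u j ≤ D :=
  (le_sm Q h0 le_rfl).trans (h j)

theorem le_D (hQ : 0 ≤ Q) (h0 : ∀ j, 0 ≤ u j) (h : ∀ k, sm Q k u ≤ D) (j : ℕ) : u j ≤ D :=
  (le_mul_of_one_le_left (h0 j) (wt_one_le hQ j)).trans (wt_le_sm h0 h j)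

theorem sm_next (hQ : 0 ≤ Q) (h0 : ∀ j, 0 ≤ u j) (h : ∀ k, sm Q k u ≤ D) (k : ℕ) :
    sm Q k (fun j => u (j + 1)) ≤ D := by
  refine le_trans ?_ (h (k + 1))
  rw [sm, sm, sum_range_succ' _ (k + 1)]
  exact le_add_of_le_of_nonneg (sum_le_sum fun j _ => mul_le_mul_of_nonneg_right
    (wt_mono hQ j.le_succ) (h0 _)) (mul_nonneg (wt_pos _ _).le (h0 _))

theorem sm_back (hQ : 0 ≤ Q) (h0 : ∀ j, 0 ≤ u j) (h : ∀ k, sm Q k u ≤ D) (w k : ℕ) :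
    sm Q k (fun j => u (j - w)) ≤ (w + 1) * wt Q w * D := by
  have p : ∀ j, 0 ≤ wt Q j * u (j - w) := fun j => mul_nonneg (wt_pos _ _).le (h0 _)
  refine (sum_le_sum_of_subset_of_nonneg (range_mono (show k + 1 ≤ w + (k + 1) by omega))
    fun j _ _ => p j).trans ?_
  rw [sum_range_add, add_mul, add_mul, one_mul]
  refine add_le_add ((sum_le_card_nsmul _ _ (wt Q w * D) fun j hj => ?_).trans_eq
    (by rw [card_range, nsmul_eq_mul, mul_assoc])) ?_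
  · exact mul_le_mul (wt_mono hQ (mem_range.1 hj).le) (le_D hQ h0 h _) (h0 _) (wt_pos _ _).le
  · refine le_trans ?_ (mul_le_mul_of_nonneg_left (h k) (wt_pos Q w).le)
    rw [sm, mul_sum]
    refine sum_le_sum fun j _ => ?_
    rw [Nat.add_sub_cancel_left, ← mul_assoc, add_comm]
    exact mul_le_mul_of_nonneg_right (wt_addle hQ j w) (h0 _)

/-- A bounded sequence on a window. -/
theorem sm_win {β : ℕ → ℝ} {b : ℝ} (hb : 0 ≤ b) (a N : ℕ) (h : ∀ i, wt Q i * β i ≤ b)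
    (h0 : ∀ i, β i ≠ 0 → a ≤ i ∧ i < a + N) (k : ℕ) : sm Q k β ≤ N * b := by
  classical
  rw [sm, ← sum_filter_of_ne (p := fun i => a ≤ i ∧ i < a + N)
    fun i _ e => h0 i (right_ne_zero_of_mul e)]
  refine (sum_le_card_nsmul _ _ b fun i _ => h i).trans ?_
  rw [nsmul_eq_mul]
  refine mul_le_mul_of_nonneg_right ?_ hb
  have : #({i ∈ range (k + 1) | a ≤ i ∧ i < a + N}) ≤ #(Finset.Ico a (a + N)) :=
    card_le_card fun i hi => Finset.mem_Ico.2 (mem_filter.1 hi).2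
  rw [Nat.card_Ico, Nat.add_sub_cancel_left] at this
  exact_mod_cast this

/-- The continuation of a sequence of bounds by a bounded one. -/
theorem patch {p : ℕ → ℝ → Prop} {m β : ℕ → ℝ} {t T W b : ℝ} (hb : 0 ≤ b) (m0 : ∀ i, 0 ≤ m i)
    (β0 : ∀ i, 0 ≤ β i) (hm : ∀ k, sm Q k m ≤ D) (hβ : ∀ i, wt Q i * β i ≤ b)
    (mono : ∀ i x y, x ≤ y → p i x → p i y) (h1 : ∀ i : ℕ, t + i ≤ T → p i (m i))
    (h2 : ∀ i, p i (β i)) : ∃ n : ℕ → ℝ, (∀ i, 0 ≤ n i) ∧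
      (∀ k, sm Q k n ≤ D + (⌈W⌉₊ + 2) * b) ∧ ∀ i : ℕ, t + i ≤ T + W → p i (n i) := by
  classical
  let γ : ℕ → ℝ := fun i => if T < t + i ∧ t + i ≤ T + W then β i else 0
  have γ0 : ∀ i, 0 ≤ γ i := fun i => by
    simp only [γ]; split_ifs
    exacts [β0 i, le_rfl]
  refine ⟨fun i => m i + γ i, fun i => add_nonneg (m0 i) (γ0 i), fun k => ?_, fun i hi => ?_⟩
  · rw [sm_add]
    refine add_le_add (hm k) ((sm_win hb ⌊T - t⌋₊ (⌈W⌉₊ + 2) (fun i => ?_) (fun i e => ?_) k).trans_eq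
      (by push_cast; ring))
    · simp only [γ]; split_ifs
      exacts [hβ i, by simpa using hb]
    · have e2 : T < t + i ∧ t + i ≤ T + W := by
        by_contra e2
        exact e (if_neg e2)
      have f1 := Nat.lt_floor_add_one (T - t)
      have f2 := Nat.le_ceil W
      refine ⟨Nat.floor_le_of_le (by linarith), ?_⟩
      have : (i : ℝ) < (⌊T - t⌋₊ + (⌈W⌉₊ + 2) : ℕ) := by push_cast; linarith
      exact_mod_cast this
  · rcases le_or_gt (t + i) T with e | e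
    · exact mono i _ _ (le_add_of_nonneg_right (γ0 i)) (h1 i e)
    · exact mono i _ _ (le_add_of_nonneg_of_le (m0 i) (if_pos ⟨e, hi⟩).ge) (h2 i)

variable {Y Y' : ℝ → ℝ → ℝ≥0∞} {T : ℝ}

theorem sm_ofReal (h0 : ∀ j, 0 ≤ u j) (k : ℕ) : ENNReal.ofReal (sm Q k u) =
    ∑ j ∈ range (k + 1), ENNReal.ofReal (wt Q j) * ENNReal.ofReal (u j) := by
  rw [sm, ENNReal.ofReal_sum_of_nonneg fun j _ => mul_nonneg (wt_pos _ _).le (h0 j)]
  exact sum_congr rfl fun j _ => ENNReal.ofReal_mul (wt_pos _ _).le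

theorem sl_of (h0 : ∀ j, 0 ≤ u j) (h : ∀ k, sm Q k u ≤ D)
    (e : ∀ j, Y (lo c j) (min (c.t1 + j + 1) T) ≤ ENNReal.ofReal (u j)) : Sl c Q Y T D := fun k =>
  (sum_le_sum fun j _ => mul_le_mul_right (e j) _).trans
    ((sm_ofReal h0 k).symm.trans_le (ENNReal.ofReal_le_ofReal (h k)))

theorem Sl.real (h : Sl c Q Y T D) (hD : 0 ≤ D) : ∃ u : ℕ → ℝ, (∀ j, 0 ≤ u j) ∧
    (∀ k, sm Q k u ≤ D) ∧ ∀ j, Y (lo c j) (min (c.t1 + j + 1) T) ≤ ENNReal.ofReal (u j) := by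
  have f : ∀ j, Y (lo c j) (min (c.t1 + j + 1) T) ≠ ⊤ := fun j e => by
    have := (single_le_sum (f := fun j => ENNReal.ofReal (wt Q j) *
      Y (lo c j) (min (c.t1 + j + 1) T)) (fun _ _ => zero_le) (self_mem_range_succ j)).trans (h j)
    rw [e, ENNReal.mul_top (ENNReal.ofReal_pos.2 (wt_pos Q j)).ne'] at this
    exact ENNReal.ofReal_ne_top (top_le_iff.1 this)
  refine ⟨fun j => (Y (lo c j) (min (c.t1 + j + 1) T)).toReal, fun _ => ENNReal.toReal_nonneg,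
    fun k => (ENNReal.ofReal_le_ofReal_iff hD).1 ?_, fun j => (ENNReal.ofReal_toReal (f j)).ge⟩
  rw [sm_ofReal fun _ => ENNReal.toReal_nonneg]
  simpa only [ENNReal.ofReal_toReal (f _)] using h k

theorem Sl.mono {T' D' : ℝ} (h : Sl c Q Y T D) (hD : D ≤ D')
    (e : ∀ a b, Y' a (min b T') ≤ Y a (min b T)) : Sl c Q Y' T' D' := fun k =>
  (sum_le_sum fun _ _ => mul_le_mul_right (e _ _) _).trans
    ((h k).trans (ENNReal.ofReal_le_ofReal hD))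

theorem Yz_union (f : E6 → ℝ) {Z Z1 Z2 : Set E6}
    (h : ∀ x ∈ E.O1, An x → x ∈ Z → x ∈ Z1 ∨ x ∈ Z2) : Yz E f Z ≤ Yz E f Z1 + Yz E f Z2 :=
  (lintegral_mono_set fun x hx => (h x hx.1 hx.2.1 hx.2.2).imp (fun e => ⟨hx.1, hx.2.1, e⟩)
    fun e => ⟨hx.1, hx.2.1, e⟩).trans (lintegral_union_le _ _ _)

theorem eta_mono {n n' : ℕ} (h : n ≤ n') (x : E6) : E.eta n x ≤ E.eta n' x :=
  add_le_add (P354BO.q2_mono _ x h _) (P354BO.q2_mono _ x h _)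

theorem eta_nn (n : ℕ) (x : E6) : 0 ≤ E.eta n x :=
  add_nonneg (P354BO.q2_nonneg _ x _ _) (P354BO.q2_nonneg _ x _ _)

theorem lo_le (hB : -c.B ≤ c.t1) (j : ℕ) : lo c j ≤ c.t1 + j := by
  unfold lo; split_ifs with h
  · simpa [h] using hB
  · exact le_rfl

theorem Ys_mono {n n' : ℕ} {s s' ρ ρ' a b a' b' : ℝ} (hn : n ≤ n') (hs : s ≤ s') (hρ : ρ ≤ ρ')
    (ha : a' ≤ a) (hb : b ≤ b') : Ys c E n s ρ a b ≤ Ys c E n' s' ρ' a' b' :=
  (Yz_le E (eta_mono hn) _).trans (Yz_mono E _ fun _ _ _ h =>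
    ⟨h.1, h.2.1.trans hs, h.2.2.1.trans hρ, ha.trans h.2.2.2.1, h.2.2.2.2.trans hb⟩)

theorem Yl_mono {n n' : ℕ} {ρ ρ' a b a' b' : ℝ} (hn : n ≤ n') (hρ : ρ ≤ ρ')
    (ha : a' ≤ a) (hb : b ≤ b') : Yl c E n ρ a b ≤ Yl c E n' ρ' a' b' :=
  (Yz_le E (eta_mono hn) _).trans (Yz_mono E _ fun _ _ _ h =>
    ⟨h.1, h.2.1.trans hρ, ha.trans h.2.2.1, h.2.2.2.trans hb⟩)

/-- Three slabs cover a neighbourhood. -/
theorem cover (hB : -c.B ≤ c.t1) (f : E6 → ℝ) {Z : ℝ → ℝ → Set E6} {S : Set E6} {j : ℕ}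
    (h0 : ∀ j, 0 ≤ u j)
    (e : ∀ j, Yz E f (Z (lo c j) (min (c.t1 + j + 1) T)) ≤ ENNReal.ofReal (u j))
    (hS : ∀ y ∈ E.O1, An y → y ∈ S → c.t1 + j ≤ y.1 ∧ y.1 ≤ c.t1 + j + 3 ∧ y.1 ≤ T ∧
      ∀ a b, a ≤ y.1 → y.1 ≤ b → y ∈ Z a b) :
    Yz E f S ≤ ENNReal.ofReal (u j + u (j + 1) + u (j + 2)) := by
  rw [ENNReal.ofReal_add (add_nonneg (h0 _) (h0 _)) (h0 _), ENNReal.ofReal_add (h0 _) (h0 _)]
  have l0 := lo_le hB j
  have l1 := lo_le hB (j + 1)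
  have l2 := lo_le hB (j + 2)
  push_cast at l1 l2
  refine (Yz_union f (Z1 := S ∩ {y | y.1 ≤ c.t1 + j + 2}) fun y hy a s => ?_).trans
    (add_le_add ((Yz_union f fun y hy a s => ?_).trans (add_le_add (e j) (e (j + 1)))) (e (j + 2)))
  · obtain ⟨a1, a2, a3, a4⟩ := hS y hy a s
    exact (le_total y.1 (c.t1 + j + 2)).imp (fun k => ⟨s, k⟩)
      fun k => a4 _ _ (by linarith) (le_min (by push_cast; linarith) a3)
  · obtain ⟨a1, a2, a3, a4⟩ := hS y hy a s.1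
    have : y.1 ≤ c.t1 + j + 2 := s.2
    exact (le_total y.1 (c.t1 + j + 1)).imp (fun k => a4 _ _ (by linarith) (le_min k a3))
      fun k => a4 _ _ (by linarith) (le_min (by push_cast; linarith) a3)

end Vale.Agent.P354CO
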